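import Mathlib

/-!
A one-sided invertible group algebra element with a strictly dominant coefficient is invertible.
-/

namespace Vale.Agent.Results.P194.DominantOneSidedInverse

/-- Over a field with a real absolute value and any group, if `a * b = 1` and one coefficient of
`a` strictly exceeds the sum of all others in absolute value, then `b * a = 1`. -/
theorem result {K G : Type*} [Field K] [Group G] [DecidableEq G] (v : AbsoluteValue K ℝ)
    (a b : MonoidAlgebra K G) (g₀ : G)
    (hdom : ∑ g ∈ a.coeff.support.erase g₀, v (a.coeff g) < v (a.coeff g₀)) (hab : a * b = 1) :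
    b * a = 1 := by
  classical
  have hz : a * (b * a - 1) = 0 := by rw [mul_sub, ← mul_assoc, hab, one_mul, mul_one, sub_self]
  refine sub_eq_zero.mp ?_
  set z := b * a - 1
  by_contra hb
  obtain ⟨x, hx, hmax⟩ := z.coeff.support.exists_max_image (fun x => v (z.coeff x))
    (Finsupp.support_nonempty_iff.mpr fun h => hb (MonoidAlgebra.coeff_eq_zero.mp h))
  set M := v (z.coeff x) with hMdef
  have hM : 0 < M := v.pos (Finsupp.mem_support_iff.mp hx)
  have hle : ∀ y, v (z.coeff y) ≤ M := fun y => by
    by_cases hy : y ∈ z.coeff.support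
    · exact hmax y hy
    · rw [Finsupp.notMem_support_iff.mp hy, map_zero]; exact hM.le
  have hg₀ : g₀ ∈ a.coeff.support := by
    rw [Finsupp.mem_support_iff]
    intro h0
    rw [h0, map_zero] at hdom
    exact absurd hdom (not_lt.mpr (Finset.sum_nonneg fun g _ => v.nonneg _))
  have h1 : ∑ h ∈ a.coeff.support, a.coeff h * z.coeff (h⁻¹ * (g₀ * x)) = 0 := by
    have := congrArg (fun w : MonoidAlgebra K G => w.coeff (g₀ * x)) hz
    simpa [MonoidAlgebra.coeff_mul_apply_left, Finsupp.sum] using this
  rw [← Finset.add_sum_erase _ _ hg₀, inv_mul_cancel_left, add_eq_zero_iff_eq_neg] at h1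
  have h2 : v (a.coeff g₀) * M ≤ (∑ h ∈ a.coeff.support.erase g₀, v (a.coeff h)) * M := by
    rw [Finset.sum_mul, hMdef, ← map_mul, h1, v.map_neg]
    refine (v.sum_le _ _).trans (Finset.sum_le_sum fun h _ => ?_)
    rw [map_mul]
    exact mul_le_mul_of_nonneg_left (hle _) (v.nonneg _)
  linarith [mul_lt_mul_of_pos_right hdom hM]

end Vale.Agent.Results.P194.DominantOneSidedInverse
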