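import Vale.Agent.P194.Indicable.Sofic

/-!
Stable finiteness of group algebras along locally indicable normal subgroups, in particular
with sofic quotient.
-/

open Vale.Agent.P194.Indicable

namespace Vale.Agent.Results.P194.IndicableKernel

universe u v

theorem result :
    (∀ (K : Type u) [Field K] (G : Type v) [Group G] (N : Subgroup G) [N.Normal],
      (∀ L : Subgroup G, L ≤ N → L.FG → L ≠ ⊥ →
        ∃ φ : L →* Multiplicative ℤ, Function.Surjective φ) →
      (IsStablyFiniteRing (MonoidAlgebra K (G ⧸ N)) →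
          IsStablyFiniteRing (MonoidAlgebra K G)) ∧
        (IsSofic (G ⧸ N) → IsStablyFiniteRing (MonoidAlgebra K G)) ∧
        (Group.ResiduallyFinite (G ⧸ N) → IsStablyFiniteRing (MonoidAlgebra K G))) ∧
    (∀ (p : ℕ) [Fact p.Prime] (K : Type u) [Field K] [CharP K p] (G : Type v) [Group G]
        (N : Subgroup G) [N.Normal],
      (∀ L : Subgroup G, L ≤ N → L.FG → L ≠ ⊥ →
        ∃ φ : L →* Multiplicative (ZMod p), Function.Surjective φ) →
      (IsStablyFiniteRing (MonoidAlgebra K (G ⧸ N)) →
          IsStablyFiniteRing (MonoidAlgebra K G)) ∧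
        (IsSofic (G ⧸ N) → IsStablyFiniteRing (MonoidAlgebra K G)) ∧
        (Group.ResiduallyFinite (G ⧸ N) → IsStablyFiniteRing (MonoidAlgebra K G))) := by
  refine ⟨fun K _ G _ N _ hN => ?_, fun p _ K _ _ G _ N _ hN => ?_⟩
  · have hI : IndicableIn ℤ N := by
      intro L hL hfg hne
      obtain ⟨φ, hφ⟩ := hN L hL hfg hne
      refine ⟨φ, fun h => ?_⟩
      obtain ⟨x, hx⟩ := hφ (Multiplicative.ofAdd 1)
      rw [h] at hx
      exact one_ne_zero (Multiplicative.ofAdd.injective hx.symm)
    refine ⟨fun h => ?_, fun h => ?_, fun h => ?_⟩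
    · exact @stablyFinite_of_quotient K _ G _ N _ ℤ _ regular_int hI h
    · exact @stablyFinite_of_quotient K _ G _ N _ ℤ _ regular_int hI
        (stablyFinite_of_sofic h)
    · exact @stablyFinite_of_quotient K _ G _ N _ ℤ _ regular_int hI
        (@stablyFinite_of_residuallyFinite K _ (G ⧸ N) _ h)
  · have hI : IndicableIn (ZMod p) N := by
      intro L hL hfg hne
      obtain ⟨φ, hφ⟩ := hN L hL hfg hne
      refine ⟨φ, fun h => ?_⟩
      obtain ⟨x, hx⟩ := hφ (Multiplicative.ofAdd 1)
      rw [h] at hx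
      exact one_ne_zero (Multiplicative.ofAdd.injective hx.symm)
    refine ⟨fun h => ?_, fun h => ?_, fun h => ?_⟩
    · exact @stablyFinite_of_quotient K _ G _ N _ (ZMod p) _ (regular_zmod_charP p) hI h
    · exact @stablyFinite_of_quotient K _ G _ N _ (ZMod p) _ (regular_zmod_charP p) hI
        (stablyFinite_of_sofic h)
    · exact @stablyFinite_of_quotient K _ G _ N _ (ZMod p) _ (regular_zmod_charP p) hI
        (@stablyFinite_of_residuallyFinite K _ (G ⧸ N) _ h)

end Vale.Agent.Results.P194.IndicableKernel
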